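import Vale.Agent.Lib.P089.AN.J2
import Vale.Agent.Lib.P089.AM.Final

/-!
# P089 AN: no multiple of the class of the projection is in the range of the assembly map
-/

namespace P089.AM

open scoped Classical NNReal

noncomputable section

section Diag

variable {B : Type} [NonUnitalRing B] [Module ℂ B] [IsScalarTower ℂ B B] [SMulCommClass ℂ B B]

/-- the cycle `[diag(s, …, s)] - [0]` -/
def diagCyc (n : ℕ) (s : B) (hs : s * s = s) : KCyc B where
  n := n
  p := Matrix.diagonal fun _ => Unitization.inr s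
  q := 0
  hp := by
    rw [Matrix.diagonal_mul_diagonal]
    congr 1
    funext _
    rw [← Unitization.inr_mul, hs]
  hq := by rw [mul_zero]
  hs := fun i j => by
    by_cases h : i = j
    · subst h
      rw [Matrix.diagonal_apply_eq, Unitization.fst_inr]
      rfl
    · rw [Matrix.diagonal_apply_ne _ h]
      rfl

/-- `diag(e 0 0, …, e 0 0)` is equivalent to `∑ e i i` -/
theorem mvn_diag (n : ℕ) (e : ℕ → ℕ → B) (h1 : ∀ i j k, e i j * e j k = e i k)
    (h2 : ∀ i j l k, j ≠ l → e i j * e l k = 0) :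
    MvN (Matrix.diagonal fun _ : Fin n => (Unitization.inr (e 0 0) : Unitization ℂ B))
      (Matrix.of fun (_ _ : Fin 1) => (Unitization.inr (∑ i : Fin n, e i i) : Unitization ℂ B)) := by
  refine ⟨Matrix.of fun (i : Fin n) (_ : Fin 1) => Unitization.inr (e 0 i),
    Matrix.of fun (_ : Fin 1) (i : Fin n) => Unitization.inr (e i 0), ?_, ?_⟩
  · refine Matrix.ext fun i j => ?_
    rw [Matrix.mul_apply, Fin.sum_univ_one, Matrix.of_apply, Matrix.of_apply,
      ← Unitization.inr_mul]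
    by_cases h : i = j
    · subst h
      rw [h1, Matrix.diagonal_apply_eq]
    · rw [Matrix.diagonal_apply_ne _ h, h2 _ _ _ _ (fun h3 => h (Fin.ext h3))]
      exact Unitization.inr_zero _
  · refine Matrix.ext fun i j => ?_
    rw [Matrix.mul_apply, Matrix.of_apply]
    have h3 : ∀ (t : Finset (Fin n)) (f : Fin n → B),
        (Unitization.inr (∑ i ∈ t, f i) : Unitization ℂ B) = ∑ i ∈ t, Unitization.inr (f i) := by
      intro t f
      induction t using Finset.induction_on with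
      | empty => rw [Finset.sum_empty, Finset.sum_empty]; exact Unitization.inr_zero _
      | insert a t ha ih =>
        rw [Finset.sum_insert ha, Finset.sum_insert ha, ← ih]
        exact Unitization.inr_add _ _ _
    rw [h3]
    refine Finset.sum_congr rfl fun k _ => ?_
    rw [Matrix.of_apply, Matrix.of_apply, ← Unitization.inr_mul, h1]

/-- with matrix units `e i j`, `diag(e 0 0, …, e 0 0)` and `∑ e i i` have the same class -/
theorem krel_diag (n : ℕ) (e : ℕ → ℕ → B) (h1 : ∀ i j k, e i j * e j k = e i k)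
    (h2 : ∀ i j l k, j ≠ l → e i j * e l k = 0)
    (hs : (∑ i : Fin n, e i i) * (∑ i : Fin n, e i i) = ∑ i : Fin n, e i i) :
    KRel (diagCyc n (e 0 0) (h1 0 0 0)) (projCyc (∑ i : Fin n, e i i) hs) := by
  rw [krel_iff]
  refine ⟨0, 0, Matrix.mul_zero 0, ?_⟩
  have hc : cls (diagCyc n (e 0 0) (h1 0 0 0)).p (diagCyc n (e 0 0) (h1 0 0 0)).hp =
      cls (projCyc (∑ i : Fin n, e i i) hs).p (projCyc (∑ i : Fin n, e i i) hs).hp := by
    rw [cls_eq]
    exact mvn_diag n e h1 h2
  have hq1 : cls (diagCyc n (e 0 0) (h1 0 0 0)).q (diagCyc n (e 0 0) (h1 0 0 0)).hq = 0 := cls_zero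
  have hq2 : cls (projCyc (∑ i : Fin n, e i i) hs).q (projCyc (∑ i : Fin n, e i i) hs).hq = 0 :=
    cls_zero
  rw [hc, hq1, hq2]

end Diag

variable {G : Type} [Group G]

theorem trZ_sum {Γ W : Type} [Group Γ] (Z : Finset W) (z : Γ) {n : ℕ}
    (T : Fin n → (L2 (Γ × W) →L[ℂ] L2 (Γ × W))) :
    trZ Z (lz z * ∑ i, T i) = ∑ i, trZ Z (lz z * T i) := by
  rw [Finset.mul_sum]
  have h : ∀ (t : Finset (Fin n)), trZ Z (∑ i ∈ t, lz z * T i) = ∑ i ∈ t, trZ Z (lz z * T i) := by
    intro t
    induction t using Finset.induction_on with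
    | empty =>
      rw [Finset.sum_empty, Finset.sum_empty]
      have h0 := trZ_smul Z 0 (0 : L2 (Γ × W) →L[ℂ] L2 (Γ × W))
      rw [zero_smul, zero_mul] at h0
      exact h0
    | insert a t ha ih => rw [Finset.sum_insert ha, Finset.sum_insert ha, trZ_add, ih]
  exact h _

/-- **main theorem** -/
theorem main2 : ∃ (G : Type) (_ : Group G), Group.FG G ∧
    ∃ (s : RoeG G) (hs : s * s = s), ∀ n : ℕ, 0 < n → ∀ x : (Σ F : Finset G, K0 (Loc G F)),
      assembly G x ≠ Quot.mk _ (diagCyc n s hs) := by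
  obtain ⟨G, hG, hfg, Q, hQ, hQQ, z, hzi, hz⟩ := partZ_of P089.counter2'
  let e : ℕ → ℕ → RoeG G := fun i j => ⟨jop2 i j Q, jop2_mem i j hQ⟩
  have h1 : ∀ i j k, e i j * e j k = e i k := fun i j k => Subtype.ext (by
    change jop2 i j Q * jop2 j k Q = jop2 i k Q
    rw [jop2_mul, hQQ])
  have h2 : ∀ i j l k, j ≠ l → e i j * e l k = 0 := fun i j l k h => Subtype.ext (by
    change jop2 i j Q * jop2 l k Q = 0
    rw [jop2_mul_ne h])
  refine ⟨G, hG, hfg, e 0 0, h1 0 0 0, fun n hn x hx => ?_⟩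
  obtain ⟨F, x⟩ := x
  set S : RoeG G := ∑ i : Fin n, e i i with hSdef
  have hSS : S * S = S := by
    rw [hSdef, Finset.sum_mul]
    refine Finset.sum_congr rfl fun i _ => ?_
    rw [Finset.mul_sum, Finset.sum_eq_single i]
    · exact h1 _ _ _
    · intro j _ hj
      exact h2 _ _ _ _ (fun h => hj (Fin.ext h.symm))
    · intro h
      exact absurd (Finset.mem_univ i) h
  have hSv : (S : HX G →L[ℂ] HX G) = ∑ i : Fin n, jop2 (i : ℕ) i Q := by
    rw [hSdef, AddSubmonoidClass.coe_finsetSum]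
  have hk := krel_diag n e h1 h2 hSS
  have hx2 : K0map (ev G F) x = Quot.mk _ (projCyc S hSS) := hx.trans (Quot.sound hk)
  obtain ⟨m, hm⟩ : ∃ m, z m ∉ F := by
    by_contra hcon
    push Not at hcon
    exact Set.infinite_univ.mono (fun n _ => hcon n) |>.elim ((F.finite_toSet.preimage hzi.injOn))
  obtain ⟨hz1, hz2, hz3, hz4⟩ := hz m
  let Z1 : Finset (WG G) := (Finset.range n).image (wi G)
  have hwi : ∀ i : Fin n, wi G i ∈ Z1 := fun i =>
    Finset.mem_image_of_mem _ (Finset.mem_range.2 i.2)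
  have h5 := partStar partCl partTr partRoe partK G (z m) hz1 hz2 hz3 F hm x S hSS Z1
    (fun Z hZ => ⟨by
      rw [hSv, Finset.mul_sum]
      exact Finset.sum_congr rfl fun i _ => EZ_jop2 _ _ _ _ (hZ (hwi i)), by
      rw [hSv, Finset.sum_mul]
      exact Finset.sum_congr rfl fun i _ => jop2_EZ _ _ _ _ (hZ (hwi i))⟩) hx2 Z1
    (Finset.Subset.refl _)
  rw [hSv, trZ_sum] at h5
  have h6 : ∀ i : Fin n, trZ Z1 (lz (z m) * jop2 (i : ℕ) i Q) = (Q (dl 1)) (z m) := fun i => by
    unfold trZ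
    rw [Finset.sum_congr rfl fun w _ => ent_lz_jop2 (i : ℕ) Q (z m) w, Finset.sum_ite_eq',
      if_pos (hwi i)]
  rw [Finset.sum_congr rfl fun i _ => h6 i, Finset.sum_const, Finset.card_univ, Fintype.card_fin,
    nsmul_eq_mul] at h5
  rcases mul_eq_zero.1 h5 with h7 | h7
  · exact hn.ne' (Nat.cast_eq_zero.1 h7)
  · exact hz4 h7

end

end P089.AM
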