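import Vale.Agent.Lib.P089.AN.NTimes
import Vale.Agent.Lib.P089.AN.Mult
import Vale.Agent.Lib.P089.AM.Bridge

/-!
# P089 AN: transfer of `main2` to the definitions of the statement
-/

namespace P089.Asm

open scoped Classical NNReal

noncomputable section

theorem i2 (G : Type) [Group G] :
    ∀ a ∈ (AM.RoeG G : Set (AM.HX G →L[ℂ] AM.HX G)), bw G a ∈ RoeG G := fun a ha => mem_roeG' a ha

theorem bridge_pt (G : Type) [Group G] (y'' : KCyc (AM.RoeG G : Set (AM.HX G →L[ℂ] AM.HX G)))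
    (h : (K0map (bw G) (i2 G) (Quot.mk _ y'')) ∈ Set.range (assembly G)) :
    ∃ x', AM.assembly G x' = Quot.mk _ (conv (S := (AM.RoeG G : Set (AM.HX G →L[ℂ] AM.HX G)))
      (A := AM.RoeG G) (fun _ h => h) y'') := by
  have i1 : ∀ a ∈ RoeG G, fw G a ∈ (AM.RoeG G : Set (AM.HX G →L[ℂ] AM.HX G)) := fun a ha =>
    mem_roeG a ha
  have i3 : ∀ F, ∀ a ∈ Loc F, fp G a ∈ (AM.Loc G F : Set (ℝ≥0 → (AM.HX G →L[ℂ] AM.HX G))) :=
    fun F a ha => mem_loc F a ha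
  obtain ⟨⟨F, x⟩, hx⟩ := h
  have e1 : ∀ a ∈ (AM.Loc G F : Set (ℝ≥0 → (AM.HX G →L[ℂ] AM.HX G))),
      Pi.evalAlgHom ℂ (fun _ : ℝ≥0 => (AM.HX G →L[ℂ] AM.HX G)) 0 a ∈
        (AM.RoeG G : Set (AM.HX G →L[ℂ] AM.HX G)) := fun a ha => (AM.ev G F ⟨a, ha⟩).2
  refine ⟨⟨F, Phi (S := (AM.Loc G F : Set (ℝ≥0 → (AM.HX G →L[ℂ] AM.HX G)))) (A := AM.Loc G F)
    (fun _ h => h) (zero_mem (AM.Loc G F)) (K0map (fp G) (i3 F) x)⟩, ?_⟩
  have h1 := Phi_map (S := (AM.Loc G F : Set (ℝ≥0 → (AM.HX G →L[ℂ] AM.HX G))))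
    (A := AM.Loc G F) (fun _ h => h) (S' := (AM.RoeG G : Set (AM.HX G →L[ℂ] AM.HX G)))
    (A' := AM.RoeG G) (fun _ h => h)
    (Pi.evalAlgHom ℂ (fun _ : ℝ≥0 => (AM.HX G →L[ℂ] AM.HX G)) 0)
    e1 (AM.ev G F) (fun _ => rfl) (zero_mem (AM.Loc G F)) (zero_mem (AM.RoeG G))
    (K0map (fp G) (i3 F) x)
  refine Eq.trans h1 ?_
  have h2 : K0map (Pi.evalAlgHom ℂ (fun _ : ℝ≥0 => Op (Bas G)) 0) (ev_mem F) x =
      K0map (bw G) (i2 G) (Quot.mk _ y'') := hx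
  have i4 : ∀ a ∈ Loc F, ((fw G).comp (Pi.evalAlgHom ℂ (fun _ : ℝ≥0 => Op (Bas G)) 0)) a ∈
      (AM.RoeG G : Set (AM.HX G →L[ℂ] AM.HX G)) := fun a ha => i1 _ (ev_mem F a ha)
  have h3 : K0map (Pi.evalAlgHom ℂ (fun _ : ℝ≥0 => (AM.HX G →L[ℂ] AM.HX G)) 0) e1
      (K0map (fp G) (i3 F) x) =
      K0map ((fw G).comp (Pi.evalAlgHom ℂ (fun _ : ℝ≥0 => Op (Bas G)) 0)) i4 x :=
    K0map_comp _ _ _ _ _ _ (fun _ => rfl) x
  have h4 : K0map (fw G) i1 (K0map (Pi.evalAlgHom ℂ (fun _ : ℝ≥0 => Op (Bas G)) 0) (ev_mem F) x) =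
      K0map ((fw G).comp (Pi.evalAlgHom ℂ (fun _ : ℝ≥0 => Op (Bas G)) 0)) i4 x :=
    K0map_comp _ _ _ _ _ _ (fun _ => rfl) x
  have i5 : ∀ a ∈ (AM.RoeG G : Set (AM.HX G →L[ℂ] AM.HX G)), ((fw G).comp (bw G)) a ∈
      (AM.RoeG G : Set (AM.HX G →L[ℂ] AM.HX G)) := fun a ha => ha
  have h5 : K0map (fw G) i1 (K0map (bw G) (i2 G) (Quot.mk _ y'')) =
      K0map ((fw G).comp (bw G)) i5 (Quot.mk _ y'') :=
    K0map_comp _ _ _ _ _ _ (fun _ => rfl) _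
  have h6 : K0map ((fw G).comp (bw G)) i5 (Quot.mk _ y'') = Quot.mk _ y'' :=
    K0map_id _ _ (fun _ => rfl) _
  rw [h3, ← h4, h2, h5, h6]
  rfl

section

variable {R R' : Type} [Ring R] [Algebra ℂ R] [Ring R'] [Algebra ℂ R']

theorem nTimes_map {S : Set R} {S' : Set R'} (h0 : (0 : R) ∈ S) (h0' : (0 : R') ∈ S') (n : ℕ)
    (s : R) (hs : s * s = s) (hS : s ∈ S) (f : R →ₐ[ℂ] R') (hf : ∀ a ∈ S, f a ∈ S')
    (hs' : f s * f s = f s) :
    (nTimes h0 n s hs hS).map f hf = nTimes h0' n (f s) hs' (hf s hS) := by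
  have h1 : (Matrix.diagonal fun _ : Fin n => (Unitization.inr s : Unitization ℂ R)).map (um f) =
      Matrix.diagonal fun _ : Fin n => (Unitization.inr (f s) : Unitization ℂ R') := by
    rw [Matrix.diagonal_map (um_zero f)]
    congr 1
    funext _
    refine Unitization.ext ?_ ?_
    · rw [um_fst, Unitization.fst_inr, Unitization.fst_inr]
    · rw [um_snd, Unitization.snd_inr, Unitization.snd_inr]
  have h2 : (0 : Matrix (Fin n) (Fin n) (Unitization ℂ R)).map (um f) =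
      (0 : Matrix (Fin n) (Fin n) (Unitization ℂ R')) := Matrix.map_zero _ (um_zero f)
  unfold KCyc.map nTimes
  simp only [h1, h2]

theorem nTimes_conv {S : Set R} {A : NonUnitalSubalgebra ℂ R} (hS : ∀ a, a ∈ S → a ∈ A)
    (h0 : (0 : R) ∈ S) (n : ℕ) (s : R) (hs : s * s = s) (hsS : s ∈ S)
    (hs' : (⟨s, hS s hsS⟩ : A) * ⟨s, hS s hsS⟩ = ⟨s, hS s hsS⟩) :
    conv hS (nTimes h0 n s hs hsS) = AM.diagCyc n (⟨s, hS s hsS⟩ : A) hs' := by
  have h1 : cm hS (nTimes h0 n s hs hsS).p (nTimes h0 n s hs hsS).hpS =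
      (AM.diagCyc n (⟨s, hS s hsS⟩ : A) hs').p := by
    refine map_inc_inj ?_
    rw [inc_cm]
    change (Matrix.diagonal fun _ : Fin n => (Unitization.inr s : Unitization ℂ R)) =
      (Matrix.diagonal fun _ : Fin n => (Unitization.inr (⟨s, hS s hsS⟩ : A) :
        Unitization ℂ A)).map inc
    rw [Matrix.diagonal_map inc_zero]
    congr 1
    funext _
    refine Unitization.ext ?_ ?_
    · change _ = (inc _).fst
      rw [inc_fst, Unitization.fst_inr, Unitization.fst_inr]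
    · change _ = (inc _).snd
      rw [inc_snd, Unitization.snd_inr, Unitization.snd_inr]
  have h2 : cm hS (nTimes h0 n s hs hsS).q (nTimes h0 n s hs hsS).hqS =
      (AM.diagCyc n (⟨s, hS s hsS⟩ : A) hs').q := by
    refine map_inc_inj ?_
    rw [inc_cm]
    exact (Matrix.map_zero _ inc_zero).symm
  unfold conv
  simp only [h1, h2]
  rfl

end

theorem result2 : ∃ (G : Type) (_ : Group G), Group.FG G ∧
    ∃ s : Op (Bas G), InfiniteOrderModAssembly G s := by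
  obtain ⟨G, iG, hG, s, hs, h⟩ := AM.main2
  have hs1 : s.1 * s.1 = s.1 := congrArg Subtype.val hs
  refine ⟨G, iG, hG, bw G s.1, ?_⟩
  have hs2 : bw G s.1 * bw G s.1 = bw G s.1 := by rw [← map_mul, hs1]
  refine ⟨hs2, i2 G s.1 s.2, fun n hn hr => ?_⟩
  have h0 : (0 : AM.HX G →L[ℂ] AM.HX G) ∈ (AM.RoeG G : Set (AM.HX G →L[ℂ] AM.HX G)) :=
    zero_mem (AM.RoeG G)
  have h1 := nTimes_map h0 (zero_mem_roeG G) n s.1 hs1 s.2 (bw G) (i2 G) hs2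
  obtain ⟨x', hx'⟩ := bridge_pt G (nTimes h0 n s.1 hs1 s.2) (by
    change Quot.mk _ ((nTimes h0 n s.1 hs1 s.2).map (bw G) (i2 G)) ∈ Set.range (assembly G)
    rw [h1]
    exact hr)
  refine h n hn x' (hx'.trans ?_)
  exact congrArg (Quot.mk _) (nTimes_conv (S := (AM.RoeG G : Set (AM.HX G →L[ℂ] AM.HX G)))
      (A := AM.RoeG G) (fun _ h => h) h0 n s.1 hs1 s.2 hs)

end

end P089.Asm
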