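import Vale.Agent.Lib.P089.AN.BridgeM

/-!
# P089: the Baum-Connes assembly map (trivial coefficients, degree 0) of a finitely generated
group need not be surjective, even rationally
-/

namespace P089.Asm.CokernelNotTorsion

/-- **There are a finitely generated group `G` and an idempotent `s` of `C*_r(G) ⊗ K` such that no
multiple `n [s]` with `n > 0` is in the range of the Baum-Connes assembly map
`lim_F K_0(C*_L(P_F(G))^G) → K_0(C*_r(G))`.** -/
theorem result : ∃ (G : Type) (_ : Group G), Group.FG G ∧
    ∃ s : P089.Asm.Op (P089.Asm.Bas G), P089.Asm.InfiniteOrderModAssembly G s :=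
  P089.Asm.result2

end P089.Asm.CokernelNotTorsion
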