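import Vale.Agent.Lib.P089.AM.J

/-!
# P089 AN: embeddings of `C*_r(G)` into the Roe algebra, matrix units

`jop2 i j Q = V_i Q V_j*`, where `(V_i ξ)(g, w) = ξ (g⁻¹)` if `w = wi i` and `0` otherwise.
-/

namespace P089.AM

open scoped Classical NNReal

noncomputable section

variable {G : Type} [Group G]

/-- the position `(1, i)` over the vertex `1` -/
def wi (G : Type) [Group G] (i : ℕ) : WG G := ((w0 G).1, i)

theorem wi_zero : wi G 0 = w0 G := rfl

theorem wi_inj {i j : ℕ} (h : wi G i = wi G j) : i = j := (Prod.mk.inj h).2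

/-- extension by zero of `ξ ∘ inv` -/
def jV2 (i : ℕ) : HH G →L[ℂ] HX G :=
  LinearMap.mkContinuous
    { toFun := fun ξ => ⟨fun y => if y.2 = wi G i then ξ y.1⁻¹ else 0, by
        have hp : 0 < (2 : ENNReal).toReal := by norm_num
        have h1 : Summable fun i => ‖ξ i‖ ^ (2 : ENNReal).toReal := (lp.memℓp ξ).summable hp
        have h2 : Summable fun g : G => ‖ξ g⁻¹‖ ^ (2 : ENNReal).toReal :=
          h1.comp_injective inv_injective
        refine memℓp_gen ?_
        have hinj : Function.Injective (fun g : G => ((g, wi G i) : G × (Pt G × ℕ))) :=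
          fun a b h => (Prod.mk.inj h).1
        refine (Function.Injective.summable_iff hinj ?_).1 ?_
        · intro y hy
          have : y.2 ≠ wi G i := fun h => hy ⟨y.1, Prod.ext rfl h.symm⟩
          rw [if_neg this, norm_zero, Real.zero_rpow hp.ne']
        · refine h2.congr fun g => ?_
          change _ = ‖if wi G i = wi G i then ξ g⁻¹ else 0‖ ^ _
          rw [if_pos rfl]⟩
      map_add' := fun ξ η => by
        ext y
        change (if y.2 = wi G i then ξ y.1⁻¹ + η y.1⁻¹ else 0) =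
          (if y.2 = wi G i then ξ y.1⁻¹ else 0) + if y.2 = wi G i then η y.1⁻¹ else 0
        split_ifs <;> simp
      map_smul' := fun c ξ => by
        ext y
        change (if y.2 = wi G i then c • ξ y.1⁻¹ else 0) = c • (if y.2 = wi G i then ξ y.1⁻¹ else 0)
        split_ifs <;> simp } 1
    (fun ξ => by
      rw [one_mul]
      have hp : 0 < (2 : ENNReal).toReal := by norm_num
      refine (lp.norm_le_of_tsum_le hp (norm_nonneg _) ?_)
      rw [lp.norm_rpow_eq_tsum hp]
      have hinj : Function.Injective (fun g : G => ((g, wi G i) : G × (Pt G × ℕ))) :=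
        fun a b h => (Prod.mk.inj h).1
      rw [← hinj.tsum_eq]
      · rw [← (Equiv.inv G).tsum_eq (fun g => ‖ξ g‖ ^ (2 : ENNReal).toReal)]
        refine le_of_eq (tsum_congr fun g => ?_)
        change ‖if wi G i = wi G i then ξ g⁻¹ else 0‖ ^ _ = _
        rw [if_pos rfl]
        rfl
      · intro y hy
        by_contra hcon
        apply hy
        have : y.2 ≠ wi G i := fun h => hcon ⟨y.1, Prod.ext rfl h.symm⟩
        change ‖if y.2 = wi G i then ξ y.1⁻¹ else 0‖ ^ _ = _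
        rw [if_neg this, norm_zero, Real.zero_rpow hp.ne'])

theorem jV2_apply (i : ℕ) (ξ : HH G) (y : G × (Pt G × ℕ)) :
    jV2 i ξ y = if y.2 = wi G i then ξ y.1⁻¹ else 0 := rfl

/-- restriction to `G × {wi j}` -/
def jW2 (j : ℕ) : HX G →L[ℂ] HH G :=
  LinearMap.mkContinuous
    { toFun := fun η => ⟨fun g => η (g⁻¹, wi G j), by
        have hp : 0 < (2 : ENNReal).toReal := by norm_num
        have h1 : Summable fun i => ‖η i‖ ^ (2 : ENNReal).toReal := (lp.memℓp η).summable hp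
        have hinj : Function.Injective (fun g : G => ((g⁻¹, wi G j) : G × (Pt G × ℕ))) :=
          fun a b h => inv_injective (Prod.mk.inj h).1
        exact memℓp_gen (h1.comp_injective hinj)⟩
      map_add' := fun _ _ => rfl
      map_smul' := fun _ _ => rfl } 1
    (fun η => by
      rw [one_mul]
      have hp : 0 < (2 : ENNReal).toReal := by norm_num
      refine (lp.norm_le_of_tsum_le hp (norm_nonneg _) ?_)
      rw [lp.norm_rpow_eq_tsum hp]
      have h1 : Summable fun i => ‖η i‖ ^ (2 : ENNReal).toReal := (lp.memℓp η).summable hp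
      have hinj : Function.Injective (fun g : G => ((g⁻¹, wi G j) : G × (Pt G × ℕ))) :=
          fun a b h => inv_injective (Prod.mk.inj h).1
      exact tsum_comp_le_tsum_of_inj h1 (fun i => by positivity) hinj)

theorem jW2_apply (j : ℕ) (η : HX G) (g : G) : jW2 j η g = η (g⁻¹, wi G j) := rfl

theorem jW2_jV2 (i : ℕ) (ξ : HH G) : jW2 i (jV2 i ξ) = ξ := by
  ext g
  rw [jW2_apply, jV2_apply, if_pos rfl, inv_inv]

theorem jW2_jV2_ne {i j : ℕ} (h : j ≠ i) (ξ : HH G) : jW2 j (jV2 i ξ) = 0 := by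
  ext g
  rw [jW2_apply, jV2_apply, if_neg (fun h2 => h (wi_inj h2))]
  rfl

/-- the embedding -/
def jop2 (i j : ℕ) (Q : HH G →L[ℂ] HH G) : HX G →L[ℂ] HX G := ((jV2 i).comp Q).comp (jW2 j)

theorem jop2_apply (i j : ℕ) (Q : HH G →L[ℂ] HH G) (η : HX G) :
    jop2 i j Q η = jV2 i (Q (jW2 j η)) := rfl

theorem jop2_mul (i j k : ℕ) (Q R : HH G →L[ℂ] HH G) :
    jop2 i j Q * jop2 j k R = jop2 i k (Q * R) := by
  ext1 η
  change jV2 i (Q (jW2 j (jV2 j (R (jW2 k η))))) = jV2 i (Q (R (jW2 k η)))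
  rw [jW2_jV2]

theorem jop2_mul_ne {i j l k : ℕ} (h : j ≠ l) (Q R : HH G →L[ℂ] HH G) :
    jop2 i j Q * jop2 l k R = 0 := by
  ext1 η
  change jV2 i (Q (jW2 j (jV2 l (R (jW2 k η))))) = 0
  rw [jW2_jV2_ne h, map_zero, map_zero]

/-- linearity -/
def jL2 (i j : ℕ) : (HH G →L[ℂ] HH G) →L[ℂ] (HX G →L[ℂ] HX G) :=
  LinearMap.mkContinuous
    { toFun := jop2 i j
      map_add' := fun Q R => by
        ext1 η
        change jV2 i (Q (jW2 j η) + R (jW2 j η)) = jV2 i (Q (jW2 j η)) + jV2 i (R (jW2 j η))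
        rw [map_add]
      map_smul' := fun c Q => by
        ext1 η
        change jV2 i (c • Q (jW2 j η)) = c • jV2 i (Q (jW2 j η))
        rw [map_smul] } (‖(jV2 i : HH G →L[ℂ] HX G)‖ * ‖(jW2 j : HX G →L[ℂ] HH G)‖)
    (fun Q => by
      change ‖((jV2 i).comp Q).comp (jW2 j)‖ ≤ _
      refine (ContinuousLinearMap.opNorm_comp_le _ _).trans ?_
      have h1 := ContinuousLinearMap.opNorm_comp_le (jV2 i : HH G →L[ℂ] HX G) Q
      calc ‖(jV2 i).comp Q‖ * ‖(jW2 j : HX G →L[ℂ] HH G)‖ ≤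
            (‖(jV2 i : HH G →L[ℂ] HX G)‖ * ‖Q‖) *
            ‖(jW2 j : HX G →L[ℂ] HH G)‖ := mul_le_mul_of_nonneg_right h1 (norm_nonneg _)
        _ = _ := by ring)

theorem jW2_single (j : ℕ) (h : G) : jW2 j (lp.single 2 (h, wi G j) (1 : ℂ) : HX G) = dl h⁻¹ := by
  ext g
  rw [jW2_apply]
  unfold dl
  rw [lp.single_apply, lp.single_apply]
  by_cases hg : g = h⁻¹
  · subst hg
    rw [inv_inv, Pi.single_eq_same, Pi.single_eq_same]
  · rw [Pi.single_eq_of_ne hg, Pi.single_eq_of_ne]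
    intro h2
    apply hg
    rw [← (Prod.mk.inj h2).1, inv_inv]

theorem jW2_single_ne (j : ℕ) (h : G) {w : Pt G × ℕ} (hw : w ≠ wi G j) :
    jW2 j (lp.single 2 (h, w) (1 : ℂ) : HX G) = 0 := by
  ext g
  rw [jW2_apply, lp.single_apply, Pi.single_eq_of_ne]
  · rfl
  · intro h2
    exact hw (Prod.mk.inj h2).2.symm

theorem ent_jop2 (i j : ℕ) (Q : HH G →L[ℂ] HH G) (g h : G) :
    ent (jop2 i j Q) (g, wi G i) (h, wi G j) = Q (dl h⁻¹) g⁻¹ := by
  rw [ent_HX, jop2_apply, jW2_single, jV2_apply, if_pos rfl]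

theorem ent_jop2_ne_left (i j : ℕ) (Q : HH G →L[ℂ] HH G) {y y' : G × (Pt G × ℕ)}
    (hy : y.2 ≠ wi G i) : ent (jop2 i j Q) y y' = 0 := by
  unfold ent
  rw [jop2_apply, jV2_apply, if_neg hy]

theorem ent_jop2_ne_right (i j : ℕ) (Q : HH G →L[ℂ] HH G) {y y' : G × (Pt G × ℕ)}
    (hy : y'.2 ≠ wi G j) : ent (jop2 i j Q) y y' = 0 := by
  have h1 : jW2 j (lp.single 2 y' (1 : ℂ) : HX G) = 0 := jW2_single_ne j y'.1 hy
  rw [ent_HX, jop2_apply, h1, map_zero, map_zero]
  rfl

theorem ent_jop2_lam (i j : ℕ) {s : G} {y y' : G × (Pt G × ℕ)}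
    (h : ent (jop2 i j (lam s)) y y' ≠ 0) :
    y.2 = wi G i ∧ y'.2 = wi G j ∧ y.1⁻¹ * y'.1 = s := by
  have h1 : y.2 = wi G i := by
    by_contra hcon
    exact h (ent_jop2_ne_left _ _ _ hcon)
  have h2 : y'.2 = wi G j := by
    by_contra hcon
    exact h (ent_jop2_ne_right _ _ _ hcon)
  refine ⟨h1, h2, ?_⟩
  obtain ⟨g, w⟩ := y
  obtain ⟨g', w'⟩ := y'
  subst h1 h2
  rw [ent_jop2, lam_dl] at h
  unfold dl at h
  rw [lp.single_apply] at h
  by_contra hcon
  apply h
  rw [Pi.single_eq_of_ne]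
  intro h3
  apply hcon
  change g⁻¹ * g' = s
  rw [h3, inv_mul_cancel_right]

theorem pos_wi (i : ℕ) (g h : G) (hh : (pos ((g, wi G i) : G × (Pt G × ℕ))).1 h ≠ 0) : h = g :=
  pos_w0 g h hh

theorem pos_wi_self (i : ℕ) (g : G) : (pos ((g, wi G i) : G × (Pt G × ℕ))).1 g ≠ 0 :=
  pos_w0_self g

theorem jop2_lam_mem (i j : ℕ) (s : G) : jop2 i j (lam s) ∈ RoeSet G ({1} : Finset G) := by
  refine ⟨?_, ?_, ?_, ?_⟩
  · intro g y y'
    by_cases hy : y.2 = wi G i
    · by_cases hy' : y'.2 = wi G j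
      · obtain ⟨a, w⟩ := y
        obtain ⟨b, w'⟩ := y'
        subst hy hy'
        rw [ent_jop2, ent_jop2, lam_dl, lam_dl]
        unfold dl
        rw [lp.single_apply, lp.single_apply]
        change (Pi.single (s * (g * b)⁻¹) (1 : ℂ) : G → ℂ) (g * a)⁻¹
          = (Pi.single (s * b⁻¹) (1 : ℂ) : G → ℂ) a⁻¹
        by_cases h : a⁻¹ = s * b⁻¹
        · have h2 : (g * a)⁻¹ = s * (g * b)⁻¹ := by
            rw [mul_inv_rev, mul_inv_rev, h, mul_assoc]
          rw [h, h2, Pi.single_eq_same, Pi.single_eq_same]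
        · have h2 : (g * a)⁻¹ ≠ s * (g * b)⁻¹ := by
            intro h3
            apply h
            rw [mul_inv_rev, mul_inv_rev, ← mul_assoc] at h3
            exact mul_right_cancel h3
          rw [Pi.single_eq_of_ne h, Pi.single_eq_of_ne h2]
      · rw [ent_jop2_ne_right _ _ _ hy', ent_jop2_ne_right]
        exact hy'
    · rw [ent_jop2_ne_left _ _ _ hy, ent_jop2_ne_left]
      exact hy
  · intro y y' h
    obtain ⟨h1, h2, -⟩ := ent_jop2_lam _ _ h
    obtain ⟨a, w⟩ := y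
    obtain ⟨b, w'⟩ := y'
    subst h1 h2
    constructor
    · intro g k hg hk
      rw [pos_wi _ _ _ hg, pos_wi _ _ _ hk, inv_mul_cancel]
      exact Finset.mem_singleton_self 1
    · intro g k hg hk
      rw [pos_wi _ _ _ hg, pos_wi _ _ _ hk, inv_mul_cancel]
      exact Finset.mem_singleton_self 1
  · refine ⟨{s}, fun y y' h => ?_⟩
    obtain ⟨h1, h2, h3⟩ := ent_jop2_lam _ _ h
    obtain ⟨a, w⟩ := y
    obtain ⟨b, w'⟩ := y'
    subst h1 h2
    exact ⟨a, b, pos_wi_self _ a, pos_wi_self _ b, Finset.mem_singleton.2 h3⟩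
  · intro g
    constructor
    · let ev1 : HH G →L[ℂ] ℂ := innerSL ℂ (dl g⁻¹ : HH G)
      have hev : ∀ ξ : HH G, ev1 ξ = ξ g⁻¹ := by
        intro ξ
        change inner ℂ (dl g⁻¹ : HH G) ξ = _
        unfold dl
        rw [lp.inner_single_left, RCLike.inner_apply, map_one, mul_one]
      have h1 : cut {y | (pos y).1 g ≠ 0} * jop2 i j (lam s)
          = ((ev1.comp (lam s)).comp (jW2 j)).smulRight
            (lp.single 2 (g, wi G i) (1 : ℂ) : HX G) := by
        ext1 η
        ext y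
        change cut {y | (pos y).1 g ≠ 0} (jV2 i (lam s (jW2 j η))) y =
          (ev1 (lam s (jW2 j η)) • (lp.single 2 (g, wi G i) (1 : ℂ) : HX G)) y
        rw [cut_apply, jV2_apply, hev, lp.coeFn_smul, Pi.smul_apply, lp.single_apply]
        by_cases hy : y = (g, wi G i)
        · subst hy
          rw [Pi.single_eq_same, if_pos (show (g, wi G i) ∈
            {y : G × (Pt G × ℕ) | (pos y).1 g ≠ 0} from
            pos_wi_self _ g), if_pos rfl, smul_eq_mul, mul_one]
        · rw [Pi.single_eq_of_ne hy, smul_zero]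
          by_cases h2 : y.2 = wi G i
          · rw [if_neg]
            intro h3
            apply hy
            obtain ⟨a, w⟩ := y
            subst h2
            rw [pos_wi _ a g h3]
          · rw [if_neg h2]
            split_ifs <;> rfl
      rw [h1]
      exact compact_rank_one _ _
    · let ev1 : HX G →L[ℂ] ℂ := innerSL ℂ (lp.single 2 (g, wi G j) (1 : ℂ) : HX G)
      have hev : ∀ ξ : HX G, ev1 ξ = ξ (g, wi G j) := by
        intro ξ
        change inner ℂ (lp.single 2 (g, wi G j) (1 : ℂ) : HX G) ξ = _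
        rw [lp.inner_single_left, RCLike.inner_apply, map_one, mul_one]
      have h1 : jop2 i j (lam s) * cut {y | (pos y).1 g ≠ 0}
          = ev1.smulRight (jV2 i (lam s (dl g⁻¹)) : HX G) := by
        ext1 η
        change jV2 i (lam s (jW2 j (cut {y | (pos y).1 g ≠ 0} η))) = ev1 η • jV2 i (lam s (dl g⁻¹))
        have h2 : jW2 j (cut {y | (pos y).1 g ≠ 0} η) = η (g, wi G j) • (dl g⁻¹ : HH G) := by
          ext k
          rw [jW2_apply, cut_apply, lp.coeFn_smul, Pi.smul_apply]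
          unfold dl
          rw [lp.single_apply]
          by_cases hk : k = g⁻¹
          · subst hk
            rw [inv_inv, if_pos (show (g, wi G j) ∈ {y : G × (Pt G × ℕ) | (pos y).1 g ≠ 0} from
              pos_wi_self _ g), Pi.single_eq_same, smul_eq_mul, mul_one]
          · rw [Pi.single_eq_of_ne hk, smul_zero, if_neg]
            intro h3
            apply hk
            rw [pos_wi _ _ _ h3, inv_inv]
        rw [h2, hev, map_smul, map_smul]
      rw [h1]
      exact compact_rank_one _ _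

theorem jop2_mem (i j : ℕ) {Q : HH G →L[ℂ] HH G} (hQ : Q ∈ Cred G) : jop2 i j Q ∈ RoeG G := by
  have h1 : Cred G ≤ (RoeG G).toSubmodule.comap (jL2 (G := G) i j).toLinearMap := by
    refine Submodule.topologicalClosure_minimal _ ?_ ?_
    · rw [Submodule.span_le]
      rintro _ ⟨s, rfl⟩
      change jop2 i j (lam s) ∈ RoeG G
      have h2 : jop2 i j (lam s) ∈ ⋃ F, RoeSet G F := Set.mem_iUnion.2 ⟨{1}, jop2_lam_mem i j s⟩
      exact NonUnitalSubalgebra.le_topologicalClosure _ (NonUnitalAlgebra.subset_adjoin ℂ h2)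
    · exact (clAlg_closed _).preimage (jL2 (G := G) i j).continuous
  exact h1 hQ

theorem EZ_jop2 (i j : ℕ) (Q : HH G →L[ℂ] HH G) (Z : Finset (WG G)) (hi : wi G i ∈ Z) :
    EZ Z * jop2 i j Q = jop2 i j Q := by
  ext1 η
  ext y
  change cut {y | y.2 ∈ Z} (jV2 i (Q (jW2 j η))) y = jV2 i (Q (jW2 j η)) y
  rw [cut_apply, jV2_apply]
  by_cases h : y.2 = wi G i
  · rw [if_pos]
    change y.2 ∈ Z
    rw [h]
    exact hi
  · rw [if_neg h]
    split_ifs <;> rfl

theorem jop2_EZ (i j : ℕ) (Q : HH G →L[ℂ] HH G) (Z : Finset (WG G)) (hj : wi G j ∈ Z) :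
    jop2 i j Q * EZ Z = jop2 i j Q := by
  ext1 η
  change jV2 i (Q (jW2 j (cut {y | y.2 ∈ Z} η))) = jV2 i (Q (jW2 j η))
  congr 2
  ext g
  rw [jW2_apply, jW2_apply, cut_apply, if_pos]
  exact hj

theorem ent_lz_jop2 (i : ℕ) (Q : HH G →L[ℂ] HH G) (z : G) (w : WG G) :
    ent (lz z * jop2 i i Q) (1, w) (1, w) = if w = wi G i then (Q (dl 1)) z else 0 := by
  have h1 := ent_HX (lz z * jop2 i i Q) (1, w) (1, w)
  refine Eq.trans h1 ?_
  change lz z (jop2 i i Q (lp.single 2 (1, w) (1 : ℂ) : HX G)) (1, w) = _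
  rw [lz_apply, jop2_apply, jV2_apply]
  by_cases h : w = wi G i
  · subst h
    rw [jW2_single, if_pos rfl, if_pos rfl]
    change Q (dl 1⁻¹) (z⁻¹ * 1)⁻¹ = _
    rw [inv_one, mul_one, inv_inv]
  · rw [if_neg h, if_neg h]

end

end P089.AM
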