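import Vale.Agent.Lib.P089.AM.Stmt

/-!
# P089 AN: multiples of the class of an idempotent
-/

namespace P089.Asm

open scoped Classical NNReal

noncomputable section

/-- the cycle `[diag(s, …, s)] - [0] = n [s]` of an idempotent `s` of `S` (`n` copies) -/
def nTimes {R : Type} [Ring R] [Algebra ℂ R] {S : Set R} (h0 : (0 : R) ∈ S) (n : ℕ) (s : R)
    (hs : s * s = s) (hS : s ∈ S) : KCyc S where
  n := n
  p := Matrix.diagonal fun _ => Unitization.inr s
  q := 0
  hp := by
    rw [Matrix.diagonal_mul_diagonal]
    congr 1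
    funext _
    rw [← Unitization.inr_mul, hs]
  hq := by rw [mul_zero]
  hpS := fun i j => by
    by_cases h : i = j
    · subst h
      rw [Matrix.diagonal_apply_eq, Unitization.snd_inr]
      exact hS
    · rw [Matrix.diagonal_apply_ne _ h, Unitization.snd_zero]
      exact h0
  hqS := fun i j => by
    rw [Matrix.zero_apply, Unitization.snd_zero]
    exact h0
  hs := fun i j => by
    by_cases h : i = j
    · subst h
      rw [Matrix.diagonal_apply_eq, Unitization.fst_inr]
      rfl
    · rw [Matrix.diagonal_apply_ne _ h]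
      rfl

theorem zero_mem_roeG (G : Type) [Group G] : (0 : Op (Bas G)) ∈ RoeG G :=
  subset_closure (zero_mem (NonUnitalAlgebra.adjoin ℂ {T | ∃ F : Finset G, T ∈ RoeSet F}))

/-- `s` is an idempotent of `C*(EG)^G = C*_r(G) ⊗ K`, and no multiple `n [s]`, `n > 0`, of its class
in `K_0(C*_r(G))` is in the range of the assembly map -/
def InfiniteOrderModAssembly (G : Type) [Group G] (s : Op (Bas G)) : Prop :=
  ∃ (hs : s * s = s) (hS : s ∈ RoeG G), ∀ n : ℕ, 0 < n →
    (Quot.mk _ (nTimes (zero_mem_roeG G) n s hs hS) : K0 (RoeG G)) ∉ Set.range (assembly G)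

end

end P089.Asm
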